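import Vale.Agent.P181.T7.Spec

set_option autoImplicit false

/-!
# P181, T9 = (C): types of heavy rows of unequal sizes (literals)

Rows are 0-indexed; `ex mu (j - 1) - ex mu j` is the number of columns of length exactly `j`.
Levels: the marks of the row `i < R` sit in the columns of length exactly `rho i`; `rho i = l` for
`i < l`; the digits of the row `i ≥ l` are `≤ h i`, those of the rows `1 ≤ i < l` are
`≤ k / (32 R ^ 2)`.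
-/

namespace Vale.Agent.P181.T9

open Vale.Agent.P181.T4 Vale.Agent.P181.T7 Vale.Agent.P181.H280 Vale.Agent.P181.H463

/-- the numbers of a multi-level design -/
def Lev (R l : ℕ) (rho h : ℕ → ℕ) : Prop :=
  2 ≤ l ∧ l < R ∧ (∀ i < l, rho i = l) ∧ (∀ i, l ≤ i → i < R → i < rho i ∧ rho i ≤ R) ∧
  (∀ i, i + 1 < R → rho i = i + 1 ∨ rho i = rho (i + 1)) ∧
  (∀ i j, l ≤ i → i < R → l ≤ j → j < R → rho i = rho j → h i = h j)

/-- the marks in the columns of length exactly `j > l` -/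
def mk (R l N : ℕ) (rho h : ℕ → ℕ) (j : ℕ) : ℕ :=
  ∑ i ∈ (Finset.Ico l R).filter (fun i => rho i = j), N * (4 * h i + 1)

/-- **(LB10)** types of heavy rows of unequal sizes. -/
def LB10 : Prop := ∀ (a k B n R l N top : ℕ) (rho h : ℕ → ℕ) (mu : Fin n → ℕ),
  Antitone mu → ∑ i, mu i = k * B → n ≤ a → a ≤ N → R ≤ n → Lev R l rho h →
  64 * R * (R + 5) ≤ k → k * (R + 1) ≤ N →
  ex mu l + 20 * N * k ≤ ex mu (l - 1) → ex mu 0 ≤ 2 * (ex mu (l - 1) - ex mu l) →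
  (∀ j, l < j → j ≤ R → ex mu j + mk R l N rho h j ≤ ex mu (j - 1)) →
  2 * R * ex mu 0 + k * mk R l N rho h R ≤ k * ex mu (R - 1) →
  ex mu l ≤ N * (4 * ∑ i ∈ Finset.Ico l R, h i + 50 * R) + ∑ i, low R mu i →
  4 * R + 2 ≤ ∑ i ∈ Finset.Ico l R, h i →
  16 * R * ∑ i ∈ Finset.Ico l R, (4 * h i + 1) ≤ k →
  4 * ∑ i, low R mu i ≤ N * k →
  729 * N < (k / (32 * R ^ 2) + 1) ^ (l - 1) * ∏ i ∈ Finset.Ico l R, (h i + 1) →
  (top : ℝ) * ((k : ℝ) + 1) ^ a ≤ Real.exp N →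
  top * gt (n - R) a (low R mu) ≤ plethMult B k n mu

/-- **(DecB)** the reduction with prescribed numbers of columns. -/
def DecB : Prop := ∀ (a b R X k0 : ℕ) (e : ℕ → ℕ) (lam : Fin a → ℕ), Antitone lam →
  ∑ i, lam i = a * b → 1 ≤ R → R < a → 2 * R ≤ k0 → k0 ≤ a → R ≤ X →
  (∀ j, 1 ≤ j → j ≤ R → e j + ex lam j ≤ ex lam (j - 1)) →
  2 * (R * ex lam R + 2 * a * R ^ 2 + ∑ i, low R lam i + ∑ j ∈ Finset.Icc 1 R, j * e j +
    (k0 + 2 * R)) ≤ k0 * X → (R + 1) * X ≤ 2 * b →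
  (k0 + 2 * R) * R ≤ ∑ j ∈ Finset.Icc 1 R, j * e j →
  ∃ (B k : ℕ) (mu : Fin a → ℕ), Antitone mu ∧ ∑ i, mu i = k * B ∧ k0 ≤ k ∧ k ≤ k0 + 2 * R ∧
    k ≤ a ∧ (∀ s, R ≤ s → ex mu s = ex lam s) ∧
    (∀ j, 1 ≤ j → j ≤ R → ex mu j + e j ≤ ex mu (j - 1) ∧
      ex mu (j - 1) ≤ ex mu j + e j + 2 * a) ∧
    plethMult B k a mu ≤ plethMult b a a lam

/-- **(TypeStmt)** = (C): `m` heavy rows, few cells below the row `R ≥ m`. -/
def TypeStmt : Prop := ∀ (m : ℕ) (ε : ℝ), 2 ≤ m → 0 < ε → ∃ δ : ℝ, 0 < δ ∧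
  ∀ᶠ a : ℕ in Filter.atTop, ∀ (b R : ℕ) (lam : Fin a → ℕ), b ≤ a ^ 2 → (a : ℝ) ^ (1 + ε) ≤ b →
    Antitone lam → ∑ i, lam i = a * b → m ≤ R → (R : ℝ) ≤ (a : ℝ) ^ δ →
    (a : ℝ) ^ ε * below R lam ≤ ex lam (m - 1) → (a : ℝ) ^ (1 + ε) ≤ ex lam (m - 1) →
    (a : ℝ) ^ (m + ε) ≤ ∏ i ∈ Finset.Ico 1 m, min (ex lam i : ℝ) ((a : ℝ) ^ 2) →
    plethMult a b a lam ≤ plethMult b a a lam

end Vale.Agent.P181.T9
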