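import Vale.Agent.P181.T9.Spec

set_option autoImplicit false

/-!
# P181, T9 = (C): literals of the leaves of `LB10`
-/

namespace Vale.Agent.P181.T9

open Finset

/-- nonzero digit vectors, the digit of the row `j + 1` is at most `h (j + 1)` -/
abbrev DigB (R : ℕ) (h : ℕ → ℕ) := {x : (j : Fin (R - 1)) → Fin (h (j + 1) + 1) // x ≠ 0}

/-- index set of the family -/
abbrev TypU (R : ℕ) (h : ℕ → ℕ) (P : ℕ) := {S : Finset (DigB R h) // S.card = P}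

/-- **[C-TYP]** -/
def TypB : Prop := ∀ (N R : ℕ) (s : Fin N → ℕ) (t h : ℕ → ℕ), 2 ≤ R →
  ∑ i ∈ range R, t i = ∑ q, s q → (∀ i, 1 ≤ i → i < R → 2 * h i ≤ t i / N) →
  (∀ q, 1 + 2 * ∑ i ∈ Ico 1 R, h i + ∑ i ∈ Ico 1 R, (t i / N + 1) ≤ s q) →
  ∃ typ : TypU R h (N / 2) → Fin N → ℕ → ℕ,
    (∀ u, ∀ i < R, ∑ q, typ u q i = t i) ∧
    (∀ u q, ∑ i ∈ range R, typ u q i = s q) ∧
    (∀ u q, 1 ≤ typ u q 0) ∧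
    (∀ u q, ∀ i, 1 ≤ i → i < R → t i / N ≤ typ u q i + 2 * h i) ∧
    (∀ u q q', (∀ i < R, typ u q i = typ u q' i) → q = q') ∧
    (∀ u u' (ρ : Equiv.Perm (Fin N)), (∀ q, ∀ i < R, typ u' q i = typ u (ρ q) i) → u = u')

/-- **[C-CARD]** -/
def CardB : Prop := ∀ (N R : ℕ) (h : ℕ → ℕ), 2 ≤ N → 2 ≤ R →
  729 * N < ∏ i ∈ Ico 1 R, (h i + 1) →
  Real.exp (2 * N) ≤ (Fintype.card (TypU R h (N / 2)) : ℝ)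

/-- **[C-TOT]** -/
def TotB : Prop := ∀ (μ T : ℕ → ℕ) (k R M Θ : ℕ), Antitone μ → 0 < k → 2 ≤ R →
  ∑ i ∈ range R, μ i = k * M + Θ →
  (∀ i, 1 ≤ i → i + 1 < R → T i = T (i + 1) ∨ μ (i + 1) + T i + k * (R + 1) ≤ μ i) →
  (∀ i, 1 ≤ i → i < R → T i + k * (R + 1) ≤ μ i) →
  Θ ≤ T 1 + ∑ i ∈ Ico 1 R, T i + k → ∑ i ∈ Ico 1 R, (T i + k * (R + 1)) ≤ Θ →
  ∃ w t : ℕ → ℕ, (∀ i < R, μ i = k * w i + t i) ∧ ∑ i ∈ range R, t i = Θ ∧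
    ∑ i ∈ range R, w i = M ∧ (∀ i, i + 1 < R → w (i + 1) < w i) ∧
    (∀ i, 1 ≤ i → i < R → T i + k ≤ t i ∧ t i ≤ T i + k * (R + 1)) ∧ t 0 ≤ T 1 ∧
    Θ ≤ t 0 + ∑ i ∈ Ico 1 R, (T i + k * (R + 1))

end Vale.Agent.P181.T9
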